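import Mathlib

/-!
# P235, LINE EX [E5]: the slack condition is preserved on triangles, pure part (helper460)
-/

set_option autoImplicit false

namespace Vale.Agent.P235.K5.EX.H460

/-- The tripod distance of the points of depth `t`, `t'` in the legs `i`, `i'`. -/
def tp (i i' : Fin 3) (t t' : ℝ) : ℝ := if i = i' then |t - t'| else t + t'

/-- two points in the same leg: a Gromov product vanishes -/
theorem same {i k : Fin 3} {tx ty tz : ℝ} (_hx : 0 ≤ tx) (_hy : 0 ≤ ty) (_hz : 0 ≤ tz) :
    tp i i tx ty + tp i k tx tz - tp i k ty tz ≤ 0 ∨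
      tp i i tx ty + tp i k ty tz - tp i k tx tz ≤ 0 ∨
      tp i k tx tz + tp i k ty tz - tp i i tx ty ≤ 0 := by
  unfold tp
  rw [if_pos rfl]
  by_cases h : i = k
  · rw [if_pos h, if_pos h]
    rcases le_total tx ty with h1 | h1 <;> rcases le_total ty tz with h2 | h2 <;>
      rcases le_total tx tz with h3 | h3 <;>
      simp only [abs_of_nonneg (sub_nonneg.2 h1), abs_of_nonpos (sub_nonpos.2 h1),
        abs_of_nonneg (sub_nonneg.2 h2), abs_of_nonpos (sub_nonpos.2 h2),
        abs_of_nonneg (sub_nonneg.2 h3), abs_of_nonpos (sub_nonpos.2 h3)]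
    · right; left; linarith
    · right; right; linarith
    · right; right; linarith
    · left; linarith
    · left; linarith
    · right; right; linarith
    · right; left; linarith
    · right; left; linarith
  · rw [if_neg h, if_neg h]
    rcases le_total tx ty with h1 | h1
    · rw [abs_of_nonpos (sub_nonpos.2 h1)]
      left; linarith
    · rw [abs_of_nonneg (sub_nonneg.2 h1)]
      right; left; linarith

theorem min_add3 {a b c m : ℝ} (ha : 0 ≤ a) (hb : 0 ≤ b) (hc : 0 ≤ c) (hm : 0 ≤ m)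
    (h : m ≤ a + b + c) : m ≤ min a m + min b m + min c m := by
  rcases le_total a m with h1 | h1 <;> rcases le_total b m with h2 | h2 <;>
    rcases le_total c m with h3 | h3 <;> simp only [min_eq_left, min_eq_right, h1, h2, h3] <;>
    linarith

/-- **the pure part of [E5]**: `d`, `l`, `F`, `sh` on the pairs `xy`, `yz`, `xz`. -/
theorem core {ix iy iz : Fin 3} {tx ty tz : ℝ} (hx : 0 ≤ tx) (hy : 0 ≤ ty) (hz : 0 ≤ tz)
    {A : Fin 3 → ℝ} {s : Fin 3 → Fin 3 → ℝ} (hAx : tx ≤ A ix) (hAy : ty ≤ A iy) (hAz : tz ≤ A iz)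
    (hs0 : ∀ i j, 0 ≤ s i j) (hss : ∀ i j, s i j = s j i)
    (hq : ∃ q, A q ≤ 4 * (s 0 1 + s 1 2 + s 0 2))
    {dxy dyz dxz lxy lyz lxz Fxy Fyz Fxz hxy hyz hxz : ℝ}
    (exy : lxy = dxy - hxy) (eyz : lyz = dyz - hyz) (exz : lxz = dxz - hxz)
    (sxy : 0 ≤ hxy) (syz : 0 ≤ hyz) (sxz : 0 ≤ hxz)
    (mxy : ix ≠ iy → min (s ix iy) (min tx ty / 4) ≤ hxy)
    (myz : iy ≠ iz → min (s iy iz) (min ty tz / 4) ≤ hyz)
    (mxz : ix ≠ iz → min (s ix iz) (min tx tz / 4) ≤ hxz)
    (txy : tp ix iy tx ty ≤ lxy) (tyz : tp iy iz ty tz ≤ lyz) (txz : tp ix iz tx tz ≤ lxz)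
    (fxy : Fxy ≤ tp ix iy tx ty / 8 + 7 / 8 * lxy) (fyz : Fyz ≤ tp iy iz ty tz / 8 + 7 / 8 * lyz)
    (fxz : Fxz ≤ tp ix iz tx tz / 8 + 7 / 8 * lxz) :
    (Fxy + Fxz - Fyz) / 2 ≤ 4 * ((dxy - Fxy) + (dyz - Fyz) + (dxz - Fxz)) ∨
      (Fxy + Fyz - Fxz) / 2 ≤ 4 * ((dxy - Fxy) + (dyz - Fyz) + (dxz - Fxz)) ∨
      (Fxz + Fyz - Fxy) / 2 ≤ 4 * ((dxy - Fxy) + (dyz - Fyz) + (dxz - Fxz)) := by
  by_cases h1 : ix = iy
  · subst h1
    rcases same (i := ix) (k := iz) hx hy hz with h | h | h
    · left; linarith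
    · right; left; linarith
    · right; right; linarith
  by_cases h2 : ix = iz
  · subst h2
    have e1 : tp iy ix ty tz = tp ix iy tz ty := by
      unfold tp
      rw [if_neg h1, if_neg (Ne.symm h1), add_comm]
    rw [e1] at tyz fyz
    rcases same (i := ix) (k := iy) hx hz hy with h | h | h
    · left; linarith
    · right; right; linarith
    · right; left; linarith
  by_cases h3 : iy = iz
  · subst h3
    have e1 : tp ix iy tx ty = tp iy ix ty tx := by
      unfold tp
      rw [if_neg h1, if_neg (Ne.symm h1), add_comm]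
    have e2 : tp ix iy tx tz = tp iy ix tz tx := by
      unfold tp
      rw [if_neg h1, if_neg (Ne.symm h1), add_comm]
    rw [e1] at txy fxy
    rw [e2] at txz fxz
    rcases same (i := iy) (k := ix) hy hz hx with h | h | h
    · right; left; linarith
    · right; right; linarith
    · left; linarith
  -- three different legs
  have hS : s ix iy + s iy iz + s ix iz = s 0 1 + s 1 2 + s 0 2 := by
    have a1 := hss 1 0
    have a2 := hss 2 1
    have a3 := hss 2 0
    fin_cases ix <;> fin_cases iy <;> fin_cases iz <;> simp at h1 h2 h3 ⊢ <;> linarith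
  have hm0 : 0 ≤ min (min tx ty) tz := le_min (le_min hx hy) hz
  have hmq : min (min tx ty) tz ≤ 4 * (s ix iy + s iy iz + s ix iz) := by
    obtain ⟨q, hq⟩ := hq
    rw [hS]
    have hc : q = ix ∨ q = iy ∨ q = iz := by
      fin_cases ix <;> fin_cases iy <;> fin_cases iz <;> fin_cases q <;> simp at h1 h2 h3 ⊢
    rcases hc with rfl | rfl | rfl
    · exact ((min_le_left _ _).trans (min_le_left _ _)).trans (hAx.trans hq)
    · exact ((min_le_left _ _).trans (min_le_right _ _)).trans (hAy.trans hq)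
    · exact (min_le_right _ _).trans (hAz.trans hq)
  set mu := min (min tx ty) tz with hmu
  have g1 : min (s ix iy) (mu / 4) ≤ hxy := le_trans (min_le_min le_rfl (by
    have : mu ≤ min tx ty := min_le_left _ _
    linarith)) (mxy h1)
  have g2 : min (s iy iz) (mu / 4) ≤ hyz := le_trans (min_le_min le_rfl (by
    have : mu ≤ min ty tz := le_min ((min_le_left _ _).trans (min_le_right _ _)) (min_le_right _ _)
    linarith)) (myz h3)
  have g3 : min (s ix iz) (mu / 4) ≤ hxz := le_trans (min_le_min le_rfl (by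
    have : mu ≤ min tx tz := le_min ((min_le_left _ _).trans (min_le_left _ _)) (min_le_right _ _)
    linarith)) (mxz h2)
  have g := min_add3 (hs0 ix iy) (hs0 iy iz) (hs0 ix iz) (m := mu / 4) (by linarith)
    (by linarith)
  have t1 : tp ix iy tx ty = tx + ty := if_neg h1
  have t2 : tp iy iz ty tz = ty + tz := if_neg h3
  have t3 : tp ix iz tx tz = tx + tz := if_neg h2
  rw [t1] at txy fxy
  rw [t2] at tyz fyz
  rw [t3] at txz fxz
  have hcase : mu = tx ∨ mu = ty ∨ mu = tz := by
    rcases min_choice (min tx ty) tz with h | h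
    · rcases min_choice tx ty with h' | h'
      · left; rw [hmu, h, h']
      · right; left; rw [hmu, h, h']
    · right; right; rw [hmu, h]
  rcases hcase with h | h | h
  · left; linarith
  · right; left; linarith
  · right; right; linarith

end Vale.Agent.P235.K5.EX.H460
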