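import Vale.Agent.P235.K5.EX.H460.Core

/-!
# P235, LINE EX [E5]: the slack condition is preserved on triangles (helper460)

`e i x` is the depth of `x` in the leg `i`, `A i` the Gromov products of the three roots, `s i j`
the slack of the pair of roots `i`, `j`.
-/

set_option autoImplicit false

namespace Vale.Agent.P235.K5.EX.H460

open Finset

variable {V : Type*}

/-- The tripod law. -/
noncomputable def TT (e : Fin 3 → V → ℝ) (x y : V) : ℝ := ∑ i, |e i x - e i y|

/-- The amount by which a pair is shortened. -/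
noncomputable def shr (s : Fin 3 → Fin 3 → ℝ) (e : Fin 3 → V → ℝ) (x y : V) : ℝ :=
  ∑ i, ∑ j, if i = j then 0 else min (s i j) (min (e i x) (e j y) / 4)

/-- Some Gromov product of `F` on `x`, `y`, `z` is at most four times the slack. -/
def SL (d F : V → V → ℝ) (x y z : V) : Prop :=
  (F x y + F x z - F y z) / 2 ≤ 4 * ((d x y - F x y) + (d y z - F y z) + (d x z - F x z)) ∨
    (F x y + F y z - F x z) / 2 ≤ 4 * ((d x y - F x y) + (d y z - F y z) + (d x z - F x z)) ∨
    (F x z + F y z - F x y) / 2 ≤ 4 * ((d x y - F x y) + (d y z - F y z) + (d x z - F x z))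

variable {e : Fin 3 → V → ℝ} {s : Fin 3 → Fin 3 → ℝ}

theorem exists_leg (h0 : ∀ i x, 0 ≤ e i x) (h1 : ∀ x i j, i ≠ j → e i x = 0 ∨ e j x = 0) (x : V) :
    ∃ i, ∀ j, j ≠ i → e j x = 0 := by
  by_cases h : ∃ i, 0 < e i x
  · obtain ⟨i, hi⟩ := h
    exact ⟨i, fun j hj => (h1 x j i hj).resolve_right hi.ne'⟩
  · refine ⟨0, fun j _ => ?_⟩
    by_contra hne
    exact h ⟨j, lt_of_le_of_ne (h0 j x) (Ne.symm hne)⟩

theorem TT_eq {x y : V} {i k : Fin 3} (h0 : ∀ i x, 0 ≤ e i x) (hx : ∀ j, j ≠ i → e j x = 0)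
    (hy : ∀ j, j ≠ k → e j y = 0) : TT e x y = tp i k (e i x) (e k y) := by
  unfold TT tp
  by_cases h : i = k
  · subst h
    rw [if_pos rfl, Finset.sum_eq_single i]
    · intro j _ hj
      rw [hx j hj, hy j hj, sub_zero, abs_zero]
    · intro h
      exact absurd (mem_univ i) h
  · rw [if_neg h]
    have h1 : ∀ j, |e j x - e j y| = (if j = i then e i x else 0) + if j = k then e k y else 0 := by
      intro j
      by_cases h2 : j = i
      · subst h2
        rw [if_pos rfl, if_neg h, hy j h, sub_zero, add_zero, abs_of_nonneg (h0 j x)]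
      · rw [if_neg h2, hx j h2, zero_sub, abs_neg, abs_of_nonneg (h0 j y), zero_add]
        by_cases h3 : j = k
        · rw [if_pos h3, h3]
        · rw [if_neg h3, hy j h3]
    rw [Finset.sum_congr rfl fun j _ => h1 j, Finset.sum_add_distrib]
    simp

theorem shr_term (hs : ∀ i j, 0 ≤ s i j) (h0 : ∀ i x, 0 ≤ e i x) (x y : V) (i j : Fin 3) :
    0 ≤ if i = j then 0 else min (s i j) (min (e i x) (e j y) / 4) := by
  split
  · exact le_rfl
  · exact le_min (hs i j) (div_nonneg (le_min (h0 i x) (h0 j y)) (by norm_num))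

theorem shr_nonneg (hs : ∀ i j, 0 ≤ s i j) (h0 : ∀ i x, 0 ≤ e i x) (x y : V) :
    0 ≤ shr s e x y :=
  Finset.sum_nonneg fun i _ => Finset.sum_nonneg fun j _ => shr_term hs h0 x y i j

theorem le_shr (hs : ∀ i j, 0 ≤ s i j) (h0 : ∀ i x, 0 ≤ e i x) (x y : V) {i k : Fin 3}
    (h : i ≠ k) : min (s i k) (min (e i x) (e k y) / 4) ≤ shr s e x y := by
  have h1 := Finset.single_le_sum (f := fun j => if i = j then 0 else
    min (s i j) (min (e i x) (e j y) / 4)) (fun j _ => shr_term hs h0 x y i j) (mem_univ k)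
  have h2 := Finset.single_le_sum (f := fun i => ∑ j, if i = j then 0 else
    min (s i j) (min (e i x) (e j y) / 4))
    (fun i _ => Finset.sum_nonneg fun j _ => shr_term hs h0 x y i j) (mem_univ i)
  simp only [if_neg h] at h1
  exact h1.trans h2

/-- **[E5]** the condition `SL` for `F` on the triangle `x y z`. -/
theorem sl_triple {A : Fin 3 → ℝ} (h0 : ∀ i x, 0 ≤ e i x)
    (h1 : ∀ x i j, i ≠ j → e i x = 0 ∨ e j x = 0) (hA : ∀ i x, e i x ≤ A i)
    (hs : ∀ i j, 0 ≤ s i j) (hss : ∀ i j, s i j = s j i)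
    (hq : ∃ q, A q ≤ 4 * (s 0 1 + s 1 2 + s 0 2))
    {d l F : V → V → ℝ} {x y z : V}
    (exy : l x y = d x y - shr s e x y) (eyz : l y z = d y z - shr s e y z)
    (exz : l x z = d x z - shr s e x z)
    (txy : TT e x y ≤ l x y) (tyz : TT e y z ≤ l y z) (txz : TT e x z ≤ l x z)
    (fxy : F x y ≤ TT e x y / 8 + 7 / 8 * l x y) (fyz : F y z ≤ TT e y z / 8 + 7 / 8 * l y z)
    (fxz : F x z ≤ TT e x z / 8 + 7 / 8 * l x z) : SL d F x y z := by
  obtain ⟨i, hi⟩ := exists_leg h0 h1 x
  obtain ⟨j, hj⟩ := exists_leg h0 h1 y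
  obtain ⟨k, hk⟩ := exists_leg h0 h1 z
  rw [TT_eq h0 hi hj] at txy fxy
  rw [TT_eq h0 hj hk] at tyz fyz
  rw [TT_eq h0 hi hk] at txz fxz
  exact core (h0 i x) (h0 j y) (h0 k z) (hA i x) (hA j y) (hA k z) hs hss hq exy eyz exz
    (shr_nonneg hs h0 x y) (shr_nonneg hs h0 y z) (shr_nonneg hs h0 x z)
    (fun h => le_shr hs h0 x y h) (fun h => le_shr hs h0 y z h) (fun h => le_shr hs h0 x z h)
    txy tyz txz fxy fyz fxz

/-- The same for a law `T` on a line (or on two roots): a Gromov product of `T` vanishes. -/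
theorem sl_line {d l F T : V → V → ℝ} {x y z : V} (hxy : l x y ≤ d x y) (hyz : l y z ≤ d y z)
    (hxz : l x z ≤ d x z) (txy : T x y ≤ l x y) (tyz : T y z ≤ l y z) (txz : T x z ≤ l x z)
    (fxy : F x y ≤ T x y / 8 + 7 / 8 * l x y) (fyz : F y z ≤ T y z / 8 + 7 / 8 * l y z)
    (fxz : F x z ≤ T x z / 8 + 7 / 8 * l x z)
    (h : T x y + T x z ≤ T y z ∨ T x y + T y z ≤ T x z ∨ T x z + T y z ≤ T x y) :
    SL d F x y z := by
  unfold SL
  rcases h with h | h | h
  · left; linarith
  · right; left; linarith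
  · right; right; linarith

/-- The law of one function. -/
theorem line_cases (u : V → ℝ) (x y z : V) :
    |u x - u y| + |u x - u z| ≤ |u y - u z| ∨ |u x - u y| + |u y - u z| ≤ |u x - u z| ∨
      |u x - u z| + |u y - u z| ≤ |u x - u y| := by
  rcases le_total (u x) (u y) with h1 | h1 <;> rcases le_total (u y) (u z) with h2 | h2 <;>
    rcases le_total (u x) (u z) with h3 | h3 <;>
    simp only [abs_of_nonneg (sub_nonneg.2 h1), abs_of_nonpos (sub_nonpos.2 h1),
      abs_of_nonneg (sub_nonneg.2 h2), abs_of_nonpos (sub_nonpos.2 h2),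
      abs_of_nonneg (sub_nonneg.2 h3), abs_of_nonpos (sub_nonpos.2 h3)]
  · right; left; linarith
  · right; left; linarith
  · right; right; linarith
  · left; linarith
  · left; linarith
  · right; right; linarith
  · right; left; linarith
  · right; left; linarith

end Vale.Agent.P235.K5.EX.H460
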