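import Vale.Agent.P235.K5.EX.Defs
import Vale.Agent.P235.K5.EX.H460.Tri

/-!
# P235, LINE EX [E5]: `SLStmt` (helper460)
-/

set_option autoImplicit false

namespace Vale.Agent.P235.K5.EX.H460

open Vale.Agent.P235

theorem TT_lit {V : Type} (e : Fin 3 → V → ℝ) (x y : V) :
    Vale.Agent.P235.K5.EX.TT e x y = TT e x y := by
  unfold Vale.Agent.P235.K5.EX.TT TT
  rw [Fin.sum_univ_three]

/-- **[E5]** -/
theorem sl : SLStmt := by
  intro V G d hd R ρ hρ hle hR e sh D hS F _ hF x y z hxy hyz hxz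
  obtain ⟨i, hi⟩ := exists_leg hS.e_nonneg (fun x i j hij => hS.one i j x hij) x
  obtain ⟨j, hj⟩ := exists_leg hS.e_nonneg (fun x i j hij => hS.one i j x hij) y
  obtain ⟨k, hk⟩ := exists_leg hS.e_nonneg (fun x i j hij => hS.one i j x hij) z
  have txy := hS.tt_le x y
  have tyz := hS.tt_le y z
  have txz := hS.tt_le x z
  have fxy := hF x y hxy
  have fyz := hF y z hyz
  have fxz := hF x z hxz
  rw [TT_lit, TT_eq hS.e_nonneg hi hj] at txy fxy
  rw [TT_lit, TT_eq hS.e_nonneg hj hk] at tyz fyz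
  rw [TT_lit, TT_eq hS.e_nonneg hi hk] at txz fxz
  have hlow : ∀ (a b : Fin 3) (u v : V), a ≠ b →
      min (d (R a) (R b) - ρ a b) (min (e a u) (e b v) / 4) ≤ sh u v := by
    intro a b u v hab
    have h := hS.sh_low a b u v hab
    rwa [show (1 : ℝ) / 4 * min (e a u) (e b v) = min (e a u) (e b v) / 4 by ring] at h
  exact core (s := fun a b => d (R a) (R b) - ρ a b) (hS.e_nonneg i x) (hS.e_nonneg j y)
    (hS.e_nonneg k z) (hS.e_le i x) (hS.e_le j y) (hS.e_le k z)
    (fun a b => by have := hle a b; linarith)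
    (fun a b => by
      show d (R a) (R b) - ρ a b = d (R b) (R a) - ρ b a
      rw [hd.symm, hρ.symm])
    hR rfl rfl rfl (hS.sh_nonneg x y) (hS.sh_nonneg y z) (hS.sh_nonneg x z)
    (hlow i j x y) (hlow j k y z) (hlow i k x z) txy tyz txz (by linarith) (by linarith)
    (by linarith)

end Vale.Agent.P235.K5.EX.H460
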